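import Vale.Agent.P281.H406.TS.Sh

/-!
# P281, T-S, block B1 (helper406): linear combinations of Čech data, and the coordinates of a class
-/

open Set Filter Metric MeasureTheory Vale.Agent.P281.H64
open scoped Topology ContDiff ComplexConjugate

noncomputable section

namespace Vale.Agent.P281.H406.TS

open Vale.Agent.P281.H64.TK Vale.Agent.P281.H64.TK.TS Vale.Agent.P281.H89.TS

/-- The coordinates of a class, from its Čech cocycle. -/
theorem exists_func {A : Type} (K : A → A → A → Prop) {n : ℕ} (c : Fin n → A → A → A → ℂ)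
    (hind : ∀ y : Fin n → ℂ, IsCob K (fun a b e => ∑ k, y k * c k a b e) → y = 0) :
    ∃ L : (A → A → A → ℂ) →ₗ[ℂ] (Fin n → ℂ), ∀ (x : Fin n → ℂ) (w : A → A → A → ℂ)
      (h : A → A → ℂ), (∀ a b e, K a b e →
        (∑ k, x k * c k a b e) - w a b e = h b e - h a e + h a b) → x = L w := by
  let W : Submodule ℂ (A → A → A → ℂ) :=
    { carrier := {w | IsCob K w}
      zero_mem' := ⟨fun _ _ => 0, fun a b e _ => by simp⟩
      add_mem' := by
        rintro w w' ⟨h, hh⟩ ⟨h', hh'⟩
        refine ⟨fun a b => h a b + h' a b, fun a b e hK => ?_⟩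
        simp only [Pi.add_apply, hh a b e hK, hh' a b e hK]
        ring
      smul_mem' := by
        rintro y w ⟨h, hh⟩
        refine ⟨fun a b => y * h a b, fun a b e hK => ?_⟩
        simp only [Pi.smul_apply, smul_eq_mul, hh a b e hK]
        ring }
  let f : (Fin n → ℂ) →ₗ[ℂ] ((A → A → A → ℂ) ⧸ W) :=
    W.mkQ ∘ₗ (Fintype.linearCombination ℂ c)
  have hf : ∀ y, (Fintype.linearCombination ℂ c) y = fun a b e => ∑ k, y k * c k a b e := by
    intro y
    ext a b e
    simp [Fintype.linearCombination_apply, Finset.sum_apply]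
  have hker : LinearMap.ker f = ⊥ := by
    rw [LinearMap.ker_eq_bot']
    intro y hy
    have h1 : (Fintype.linearCombination ℂ c) y ∈ W := by
      rw [← Submodule.Quotient.mk_eq_zero]
      exact hy
    rw [hf y] at h1
    exact hind y h1
  obtain ⟨g, hg⟩ := LinearMap.exists_leftInverse_of_injective f hker
  refine ⟨g ∘ₗ W.mkQ, fun x w h hh => ?_⟩
  have h1 : (Fintype.linearCombination ℂ c) x - w ∈ W := by
    refine ⟨h, fun a b e hK => ?_⟩
    rw [hf x]
    exact hh a b e hK
  have h2 : W.mkQ ((Fintype.linearCombination ℂ c) x) = W.mkQ w := by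
    rw [← sub_eq_zero, ← map_sub]
    exact (Submodule.Quotient.mk_eq_zero _).2 h1
  have h3 : g (f x) = x := by
    have := congrArg (fun l => l x) hg
    simpa using this
  have h4 : f x = W.mkQ w := h2
  rw [h4] at h3
  exact h3.symm

variable {d : ℕ} {E Γ : Type} [TopologicalSpace E] [Group Γ] [MulAction Γ E]

/-- Linear combinations of Čech data. -/
theorem isCo_comb (S : Sheets d E Γ) {A : Type} (U : A → Set E) {n : ℕ} (x : Fin n → ℂ)
    {bk : Fin n → Fin S.N → Cm d → L2 d} {βk : Fin n → A → Fin S.N → Cm d → L1 d}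
    {gk : Fin n → A → A → E → ℂ} {ck : Fin n → A → A → A → ℂ}
    (h : ∀ k, IsCo S U (bk k) (βk k) (gk k) (ck k)) {η : Fin S.N → Cm d → L1 d}
    (hη : F1On S univ η) {α : Fin S.N → Cm d → L2 d}
    (hα : IsD1 S univ η (fun i z => α i z - ∑ k, x k • bk k i z)) :
    IsCo S U α (fun a i z => (∑ k, x k • βk k a i z) + η i z)
      (fun a b e => ∑ k, x k * gk k a b e) (fun a b e => ∑ k, x k * ck k a b e) where
  f1 a := by
    refine ⟨fun i z hz hV => ?_, fun i j z hz z' hz' hV ψ hψ v => ?_⟩
    · refine ContDiffAt.add (ContDiffAt.sum fun k _ => ?_) (hη.smooth i z hz (mem_univ _))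
      exact (((h k).f1 a).smooth i z hz hV).const_smul (x k)
    · simp only [add_apply, sum_apply, smul_apply]
      rw [hη.change i j z hz z' hz' (mem_univ _) ψ hψ v]
      congr 1
      refine Finset.sum_congr rfl fun k _ => ?_
      rw [((h k).f1 a).change i j z hz z' hz' hV ψ hψ v]
  d1 a := by
    intro i z hz hV u v
    have h1 : ∀ k, DifferentiableAt ℝ (βk k a i) z := fun k =>
      (((h k).f1 a).smooth i z hz hV).differentiableAt (by simp)
    have h2 : DifferentiableAt ℝ (η i) z := (hη.smooth i z hz (mem_univ _)).differentiableAt (by simp)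
    have h3 : HasFDerivAt (fun z => (∑ k, x k • βk k a i z) + η i z)
        ((∑ k, x k • fderiv ℝ (βk k a i) z) + fderiv ℝ (η i) z) z := by
      refine HasFDerivAt.add ?_ h2.hasFDerivAt
      exact HasFDerivAt.fun_sum fun k _ => (h1 k).hasFDerivAt.const_smul (x k)
    rw [h3.fderiv]
    simp only [add_apply, sum_apply, smul_apply]
    have h4 := hα i z hz (mem_univ _) u v
    simp only [sub_apply, sum_apply, smul_apply] at h4
    have h5 : ∀ k, x k • (bk k i z u v) =
        x k • (fderiv ℝ (βk k a i) z u v) - x k • (fderiv ℝ (βk k a i) z v u) := by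
      intro k
      rw [← smul_sub, ((h k).d1 a) i z hz hV u v]
    rw [Finset.sum_congr rfl fun k _ => h5 k, Finset.sum_sub_distrib] at h4
    linear_combination h4
  sm a b := by
    intro i z hz hV
    refine ContDiffAt.sum fun k _ => ?_
    exact contDiffAt_const.mul ((h k).sm a b i z hz hV)
  d0 a b := by
    intro i z hz hV
    have h1 : HasFDerivAt (fun u => ∑ k, x k * gk k a b (S.σ i u))
        (∑ k, x k • (βk k a i z - βk k b i z)) z := by
      refine HasFDerivAt.fun_sum fun k _ => ?_
      have h2 : HasFDerivAt (fun u => gk k a b (S.σ i u)) (βk k a i z - βk k b i z) z := by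
        have h3 := (h k).d0 a b i z hz hV
        simp only at h3
        rw [← h3]
        exact (((h k).sm a b i z hz hV).differentiableAt (by simp)).hasFDerivAt
      exact h2.const_mul (x k)
    rw [h1.fderiv]
    simp only [smul_sub, Finset.sum_sub_distrib]
    abel
  co a b b' := by
    intro e he
    have h1 : ∀ k, x k * ck k a b b' = x k * gk k b b' e - x k * gk k a b' e + x k * gk k a b e := by
      intro k
      rw [← (h k).co a b b' e he]
      ring
    rw [Finset.sum_congr rfl fun k _ => h1 k, Finset.sum_add_distrib, Finset.sum_sub_distrib]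
  zero a b b' := by
    intro he
    refine Finset.sum_eq_zero fun k _ => ?_
    rw [(h k).zero a b b' he, mul_zero]

/-- Linear combinations of closed forms. -/
theorem cl2_comb (S : Sheets d E Γ) {n : ℕ} (x : Fin n → ℂ) {bk : Fin n → Fin S.N → Cm d → L2 d}
    (h : ∀ k, Cl2 S (bk k)) : Cl2 S (fun i z => ∑ k, x k • bk k i z) where
  smooth i z hz hV := ContDiffAt.sum fun k _ => ((h k).smooth i z hz hV).const_smul (x k)
  alt i z hz hV u v := by
    simp only [sum_apply, smul_apply]
    rw [← Finset.sum_neg_distrib]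
    refine Finset.sum_congr rfl fun k _ => ?_
    rw [(h k).alt i z hz hV u v, smul_neg]
  change i j z hz z' hz' hV ψ hψ u v := by
    simp only [sum_apply, smul_apply]
    refine Finset.sum_congr rfl fun k _ => ?_
    rw [(h k).change i j z hz z' hz' hV ψ hψ u v]
  closed i z hz u v w := by
    have h1 : HasFDerivAt (fun z => ∑ k, x k • bk k i z) (∑ k, x k • fderiv ℝ (bk k i) z) z :=
      HasFDerivAt.fun_sum fun k _ =>
        (((h k).smooth i z hz (mem_univ _)).differentiableAt (by simp)).hasFDerivAt.const_smul (x k)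
    rw [h1.fderiv]
    simp only [sum_apply, smul_apply]
    rw [← Finset.sum_add_distrib, ← Finset.sum_add_distrib]
    refine Finset.sum_eq_zero fun k _ => ?_
    rw [← smul_add, ← smul_add, (h k).closed i z hz u v w, smul_zero]

end Vale.Agent.P281.H406.TS
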