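import Vale.Agent.P281.MF.Hol

/-!
# P281, T-S, block B1 (helper406): holomorphic dependence of integrals over `[0, 1]` on parameters
-/

open Set Filter Metric Topology

namespace Vale.Agent.P281.H406.TS

variable {X : Type*} [NormedAddCommGroup X] [NormedSpace ℂ X] [FiniteDimensional ℂ X]

theorem differentiableOn_integral {G : X × ℂ → ℂ} {U : Set X} {W : Set ℂ}
    (hU : IsOpen U) (hW : IsOpen W) (hsW : ∀ τ ∈ Icc (0 : ℝ) 1, (τ : ℂ) ∈ W)
    (hG : DifferentiableOn ℂ G (U ×ˢ W)) :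
    DifferentiableOn ℂ (fun x => ∫ τ in (0 : ℝ)..1, G (x, (τ : ℂ))) U := by
  have : ProperSpace X := FiniteDimensional.proper ℂ X
  intro x₀ hx₀
  apply DifferentiableAt.differentiableWithinAt
  have hUW : IsOpen (U ×ˢ W) := hU.prod hW
  obtain ⟨r, hr, hrU⟩ : ∃ r > 0, closedBall x₀ (2 * r) ⊆ U := by
    obtain ⟨r, hr, h⟩ := Metric.isOpen_iff.1 hU x₀ hx₀
    exact ⟨r / 4, by positivity, (closedBall_subset_ball (by linarith)).trans h⟩
  have hK : IsCompact ((fun τ : ℝ => (τ : ℂ)) '' Icc (0 : ℝ) 1) :=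
    isCompact_Icc.image Complex.continuous_ofReal
  have hcomp : IsCompact (closedBall x₀ (2 * r) ×ˢ ((fun τ : ℝ => (τ : ℂ)) '' Icc (0 : ℝ) 1)) :=
    (isCompact_closedBall _ _).prod hK
  have hKW : (fun τ : ℝ => (τ : ℂ)) '' Icc (0 : ℝ) 1 ⊆ W := by
    rintro _ ⟨τ, hτ, rfl⟩
    exact hsW τ hτ
  have hsub : closedBall x₀ (2 * r) ×ˢ ((fun τ : ℝ => (τ : ℂ)) '' Icc (0 : ℝ) 1) ⊆ U ×ˢ W :=
    prod_mono hrU hKW
  obtain ⟨C, hC⟩ := hcomp.exists_bound_of_continuousOn (hG.continuousOn.mono hsub)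
  have hmem : ∀ τ ∈ Ioc (0 : ℝ) 1, τ ∈ Icc (0 : ℝ) 1 := fun τ hτ => ⟨hτ.1.le, hτ.2⟩
  have hdG : ∀ x ∈ ball x₀ (2 * r), ∀ τ ∈ Icc (0 : ℝ) 1,
      HasFDerivAt (fun x => G (x, (τ : ℂ)))
        ((fderiv ℂ G (x, (τ : ℂ))).comp (ContinuousLinearMap.inl ℂ X ℂ)) x := by
    intro x hx τ hτ
    have h1 : DifferentiableAt ℂ G (x, (τ : ℂ)) :=
      hG.differentiableAt (hUW.mem_nhds ⟨hrU (ball_subset_closedBall hx), hsW τ hτ⟩)
    have h2 : HasFDerivAt (fun x : X => (x, (τ : ℂ))) (ContinuousLinearMap.inl ℂ X ℂ) x :=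
      hasFDerivAt_prodMk_left x _
    exact h1.hasFDerivAt.comp x h2
  have hbound : ∀ x ∈ ball x₀ r, ∀ τ ∈ Icc (0 : ℝ) 1,
      ‖(fderiv ℂ G (x, (τ : ℂ))).comp (ContinuousLinearMap.inl ℂ X ℂ)‖ ≤ C / r := by
    intro x hx τ hτ
    have hxb : ball x r ⊆ ball x₀ (2 * r) := by
      intro y hy
      rw [mem_ball] at hx hy ⊢
      calc dist y x₀ ≤ dist y x + dist x x₀ := dist_triangle _ _ _
        _ < 2 * r := by linarith
    have hx2 : x ∈ ball x₀ (2 * r) := hxb (mem_ball_self hr)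
    rw [← (hdG x hx2 τ hτ).fderiv]
    apply MF.norm_fderiv_le_of_ball hr
    · intro y hy
      exact (hdG y (hxb hy) τ hτ).differentiableAt.differentiableWithinAt
    · intro y hy
      exact hC (y, (τ : ℂ)) ⟨ball_subset_closedBall (hxb hy), mem_image_of_mem _ hτ⟩
  have hcontD : ContinuousOn (fderiv ℂ G) (U ×ˢ W) :=
    MF.continuousOn_fderiv_of_differentiableOn hUW hG
  have key := hasFDerivAt_integral_of_dominated_of_fderiv_le
    (μ := MeasureTheory.volume.restrict (Set.Ioc (0 : ℝ) 1))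
    (F := fun (x : X) (τ : ℝ) => G (x, (τ : ℂ)))
    (F' := fun (x : X) (τ : ℝ) =>
      (fderiv ℂ G (x, (τ : ℂ))).comp (ContinuousLinearMap.inl ℂ X ℂ))
    (x₀ := x₀) (s := ball x₀ r) (bound := fun _ => C / r) (𝕜 := ℂ)
    (ball_mem_nhds x₀ hr) ?_ ?_ ?_ ?_ ?_ ?_
  · simp only [intervalIntegral.integral_of_le zero_le_one]
    exact key.differentiableAt
  · filter_upwards [ball_mem_nhds x₀ hr] with x hx
    apply ContinuousOn.aestronglyMeasurable _ measurableSet_Ioc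
    refine hG.continuousOn.comp (by fun_prop) fun τ hτ => ?_
    exact ⟨hrU (ball_subset_closedBall (ball_subset_ball (by linarith) hx)), hsW τ (hmem τ hτ)⟩
  · have h1 : ContinuousOn (fun τ : ℝ => G (x₀, (τ : ℂ))) (Icc 0 1) := by
      refine hG.continuousOn.comp (by fun_prop) fun τ hτ => ?_
      exact ⟨hx₀, hsW τ hτ⟩
    exact (h1.integrableOn_Icc (μ := MeasureTheory.volume)).mono_set Ioc_subset_Icc_self
  · apply ContinuousOn.aestronglyMeasurable _ measurableSet_Ioc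
    have h1 : ContinuousOn (fun τ : ℝ => fderiv ℂ G (x₀, (τ : ℂ))) (Ioc 0 1) := by
      refine hcontD.comp (by fun_prop) fun τ hτ => ?_
      exact ⟨hx₀, hsW τ (hmem τ hτ)⟩
    exact h1.clm_comp continuousOn_const
  · refine (MeasureTheory.ae_restrict_iff' measurableSet_Ioc).2 (Eventually.of_forall ?_)
    intro τ hτ x hx
    exact hbound x hx τ (hmem τ hτ)
  · exact MeasureTheory.integrable_const _
  · refine (MeasureTheory.ae_restrict_iff' measurableSet_Ioc).2 (Eventually.of_forall ?_)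
    intro τ hτ x hx
    exact hdG x (ball_subset_ball (by linarith) hx) τ (hmem τ hτ)

omit [FiniteDimensional ℂ X] in
/-- A neighbourhood of `{x₀} × [0, 1]` on which `G` is analytic. -/
theorem exists_tube {Y : Type*} [NormedAddCommGroup Y] [NormedSpace ℂ Y] {G : X × ℂ → Y} {x₀ : X}
    (h : ∀ τ ∈ Icc (0 : ℝ) 1, AnalyticAt ℂ G (x₀, (τ : ℂ))) [CompleteSpace Y] :
    ∃ U : Set X, IsOpen U ∧ x₀ ∈ U ∧ ∃ W : Set ℂ, IsOpen W ∧
      (∀ τ ∈ Icc (0 : ℝ) 1, (τ : ℂ) ∈ W) ∧ ∀ x ∈ U, ∀ w ∈ W, AnalyticAt ℂ G (x, w) := by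
  have hK : IsCompact ((fun τ : ℝ => (τ : ℂ)) '' Icc (0 : ℝ) 1) :=
    isCompact_Icc.image Complex.continuous_ofReal
  have hO : IsOpen {q : X × ℂ | AnalyticAt ℂ G q} := isOpen_analyticAt ℂ G
  obtain ⟨U, W, hU, hW, hxU, hKW, hUW⟩ := generalized_tube_lemma (s := {x₀}) isCompact_singleton hK
    hO (by
      rintro ⟨x, w⟩ ⟨hx, τ, hτ, rfl⟩
      rw [mem_singleton_iff] at hx
      simp only at hx
      subst hx
      exact h τ hτ)
  refine ⟨U, hU, hxU rfl, W, hW, fun τ hτ => hKW (mem_image_of_mem _ hτ), fun x hx w hw => ?_⟩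
  exact hUW ⟨hx, hw⟩

/-- Integrals over `[0, 1]` of functions depending analytically on a parameter are analytic. -/
theorem analyticAt_integral {G : X × ℂ → ℂ} {x₀ : X}
    (h : ∀ τ ∈ Icc (0 : ℝ) 1, AnalyticAt ℂ G (x₀, (τ : ℂ))) :
    AnalyticAt ℂ (fun x => ∫ τ in (0 : ℝ)..1, G (x, (τ : ℂ))) x₀ := by
  obtain ⟨U, hU, hxU, W, hW, hsW, hUW⟩ := exists_tube h
  refine MF.analyticAt_of_differentiableOn hU (differentiableOn_integral hU hW hsW ?_) hxU
  rintro ⟨x, w⟩ ⟨hx, hw⟩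
  exact (hUW x hx w hw).differentiableAt.differentiableWithinAt

end Vale.Agent.P281.H406.TS
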