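import Vale.Agent.P281.H406.TS.Prm
import Vale.Agent.P281.H406.TS.Par

/-!
# P281, T-S, block B1 (helper406): path integrals of the differences of the primitives
-/

open Set Filter Metric MeasureTheory Vale.Agent.P281.H64
open scoped Topology ContDiff ComplexConjugate

noncomputable section

namespace Vale.Agent.P281.H406.TS

open Vale.Agent.P281.H64.TK Vale.Agent.P281.H64.TK.TS Vale.Agent.P281.H89.TS

variable {p : ℕ} {E Γ : Type} [TopologicalSpace E] [Group Γ] [MulAction Γ E]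

/-- `om` as a holomorphic function. -/
def omC (𝓕 : Fam p 2 E Γ) (b : Fin 𝓕.N → Cm p × Cm 2 → ℂ) (i j : Fin 𝓕.N) (q : Cm p × Cm 2)
    (v : Cm 2) : ℂ :=
  b j (q.1, th 𝓕 i j q) * (fderiv ℂ (th 𝓕 i j) q (0, v)) 1

theorem om_eq (𝓕 : Fam p 2 E Γ) (b : Fin 𝓕.N → Cm p × Cm 2 → ℂ) {i j : Fin 𝓕.N} {t : Cm p}
    {w : Cm 2} (h : AnalyticAt ℂ (th 𝓕 i j) (t, w)) (v : Cm 2) :
    om 𝓕 b i j t w v = omC 𝓕 b i j (t, w) v := by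
  have h1 : HasFDerivAt (fun u : Cm 2 => ((t, u) : Cm p × Cm 2))
      (ContinuousLinearMap.inr ℂ (Cm p) (Cm 2)) w := hasFDerivAt_prodMk_right t w
  have h2 : HasFDerivAt (fun u => th 𝓕 i j (t, u))
      ((fderiv ℂ (th 𝓕 i j) (t, w)).comp (ContinuousLinearMap.inr ℂ (Cm p) (Cm 2))) w :=
    h.differentiableAt.hasFDerivAt.comp w h1
  have h3 : fderiv ℝ (fun u => th 𝓕 i j (t, u)) w v = fderiv ℂ (th 𝓕 i j) (t, w) (0, v) := by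
    rw [(h2.restrictScalars ℝ).fderiv]
    rfl
  have h4 : om 𝓕 b i j t w v =
      b j (t, th 𝓕 i j (t, w)) * (fderiv ℝ (fun u => th 𝓕 i j (t, u)) w v) 1 := rfl
  rw [h4, h3]
  rfl

/-- The path from `z₀` to `ζ t`. -/
def pth (z₀ : Cm 2) (ζ : Cm p → Cm 2) (q : Cm p × ℂ) : Cm 2 := z₀ + q.2 • (ζ q.1 - z₀)

theorem analyticAt_pth {z₀ : Cm 2} {ζ : Cm p → Cm 2} {t : Cm p} (hζ : AnalyticAt ℂ ζ t) (τ : ℂ) :
    AnalyticAt ℂ (pth z₀ ζ) (t, τ) := by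
  have h1 : AnalyticAt ℂ (fun q : Cm p × ℂ => ζ q.1) (t, τ) :=
    AnalyticAt.fun_comp (g := ζ) (f := fun q : Cm p × ℂ => q.1) hζ analyticAt_fst
  exact analyticAt_const.fun_add (analyticAt_snd.fun_smul (h1.fun_sub analyticAt_const))

/-- The integrand. -/
def Fpath (𝓕 : Fam p 2 E Γ) (b : Fin 𝓕.N → Cm p × Cm 2 → ℂ) (i j k : Fin 𝓕.N) (z₀ : Cm 2)
    (ζ : Cm p → Cm 2) (q : Cm p × ℂ) : ℂ :=
  omC 𝓕 b i j (q.1, pth z₀ ζ q) (ζ q.1 - z₀) - omC 𝓕 b i k (q.1, pth z₀ ζ q) (ζ q.1 - z₀)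

theorem analyticAt_omC (𝓕 : Fam p 2 E Γ) {b : Fin 𝓕.N → Cm p × Cm 2 → ℂ} {i j : Fin 𝓕.N}
    {t : Cm p} (ht : t ∈ 𝓕.T) (hb : ∀ z ∈ ball (0 : Cm 2) 3, AnalyticAt ℂ (b j) (t, z))
    {X : Type*} [NormedAddCommGroup X] [NormedSpace ℂ X] {a : X → Cm p} {w v : X → Cm 2} {x : X}
    (ha : AnalyticAt ℂ a x) (hw : AnalyticAt ℂ w x) (hv : AnalyticAt ℂ v x) (hat : a x = t)
    (hw3 : w x ∈ ball (0 : Cm 2) 3) (h : 𝓕.σ i t (w x) ∈ 𝓕.σ j t '' ball (0 : Cm 2) 3) :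
    AnalyticAt ℂ (fun x => omC 𝓕 b i j (a x, w x) (v x)) x := by
  subst hat
  have h1 := th_spec 𝓕 ht hw3 h
  have h2 : AnalyticAt ℂ (fun x => (a x, w x)) x := ha.prod hw
  have h3 : AnalyticAt ℂ (fun x => th 𝓕 i j (a x, w x)) x :=
    AnalyticAt.fun_comp (g := th 𝓕 i j) (f := fun x => (a x, w x)) h1.1 h2
  have h4 : AnalyticAt ℂ (fun x => b j (a x, th 𝓕 i j (a x, w x))) x :=
    AnalyticAt.fun_comp (g := b j) (f := fun x => (a x, th 𝓕 i j (a x, w x)))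
      (hb _ h1.2.self_of_nhds.1) (ha.prod h3)
  have h5 : AnalyticAt ℂ (fun x => fderiv ℂ (th 𝓕 i j) (a x, w x)) x :=
    AnalyticAt.fun_comp (g := fderiv ℂ (th 𝓕 i j)) (f := fun x => (a x, w x)) h1.1.fderiv h2
  have h6 : AnalyticAt ℂ (fun x => fderiv ℂ (th 𝓕 i j) (a x, w x) ((0 : Cm p), v x)) x :=
    AnalyticAt.fun_comp
      (g := fun q : (Cm p × Cm 2 →L[ℂ] Cm 2) × (Cm p × Cm 2) => q.1 q.2)
      (f := fun x => (fderiv ℂ (th 𝓕 i j) (a x, w x), ((0 : Cm p), v x)))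
      (ContinuousLinearMap.analyticAt_bilinear
        (ContinuousLinearMap.id ℂ (Cm p × Cm 2 →L[ℂ] Cm 2)) _)
      (h5.prod (analyticAt_const.prod hv))
  have h7 : AnalyticAt ℂ (fun x => (fderiv ℂ (th 𝓕 i j) (a x, w x) ((0 : Cm p), v x)) 1) x :=
    analyticAt_pi_iff.1 h6 1
  exact h4.fun_mul h7

/-- **The path integral**: the difference of the values of a primitive at two holomorphic sections
is holomorphic. -/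
theorem path (𝓕 : Fam p 2 E Γ) {b : Fin 𝓕.N → Cm p × Cm 2 → ℂ} {i j k : Fin 𝓕.N}
    {t₀ : Cm p} (ht₀ : t₀ ∈ 𝓕.T) (hbj : ∀ z ∈ ball (0 : Cm 2) 3, AnalyticAt ℂ (b j) (t₀, z))
    (hbk : ∀ z ∈ ball (0 : Cm 2) 3, AnalyticAt ℂ (b k) (t₀, z)) {V : Set E} (hV : IsOpen V)
    {C : Set (Cm 2)} (hC : Convex ℝ C) (hC3 : C ⊆ ball (0 : Cm 2) 3)
    (hCV : ∀ z ∈ C, 𝓕.σ i t₀ z ∈ V) (hCj : ∀ z ∈ C, 𝓕.σ i t₀ z ∈ 𝓕.σ j t₀ '' ball (0 : Cm 2) 3)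
    (hCk : ∀ z ∈ C, 𝓕.σ i t₀ z ∈ 𝓕.σ k t₀ '' ball (0 : Cm 2) 3)
    {z₀ : Cm 2} (hz₀ : z₀ ∈ C) {ζ : Cm p → Cm 2} (hζ : AnalyticAt ℂ ζ t₀) (hζC : ζ t₀ ∈ C) :
    ∃ J : Cm p → ℂ, AnalyticAt ℂ J t₀ ∧ ∀ᶠ t in 𝓝 t₀, ∀ γ : E → ℂ,
      (∀ w ∈ ball (0 : Cm 2) 3, 𝓕.σ i t w ∈ V →
        HasFDerivAt (fun u => γ (𝓕.σ i t u)) (om 𝓕 b i j t w - om 𝓕 b i k t w) w) →
      γ (𝓕.σ i t (ζ t)) = J t + γ (𝓕.σ i t z₀) := by
  have hmem : ∀ τ ∈ Icc (0 : ℝ) 1, pth z₀ ζ (t₀, (τ : ℂ)) ∈ C := by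
    intro τ hτ
    have h1 : pth z₀ ζ (t₀, (τ : ℂ)) = (1 - τ) • z₀ + τ • ζ t₀ := by
      ext l
      simp only [pth, Pi.add_apply, Pi.smul_apply, Pi.sub_apply, smul_eq_mul, Complex.real_smul]
      push_cast
      ring
    rw [h1]
    exact hC hz₀ hζC (by linarith [hτ.2]) hτ.1 (by ring)
  have hF : ∀ τ ∈ Icc (0 : ℝ) 1, AnalyticAt ℂ (Fpath 𝓕 b i j k z₀ ζ) (t₀, (τ : ℂ)) := by
    intro τ hτ
    have hm := hmem τ hτ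
    have h1 : AnalyticAt ℂ (fun q : Cm p × ℂ => ζ q.1 - z₀) (t₀, (τ : ℂ)) :=
      (AnalyticAt.fun_comp (g := ζ) (f := fun q : Cm p × ℂ => q.1) hζ analyticAt_fst).fun_sub
        analyticAt_const
    exact (analyticAt_omC 𝓕 ht₀ hbj (a := fun q : Cm p × ℂ => q.1) (w := pth z₀ ζ)
      (v := fun q : Cm p × ℂ => ζ q.1 - z₀) analyticAt_fst (analyticAt_pth hζ _) h1 rfl
      (hC3 hm) (hCj _ hm)).fun_sub
      (analyticAt_omC 𝓕 ht₀ hbk (a := fun q : Cm p × ℂ => q.1) (w := pth z₀ ζ)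
      (v := fun q : Cm p × ℂ => ζ q.1 - z₀) analyticAt_fst (analyticAt_pth hζ _) h1 rfl
      (hC3 hm) (hCk _ hm))
  refine ⟨fun t => ∫ τ in (0 : ℝ)..1, Fpath 𝓕 b i j k z₀ ζ (t, (τ : ℂ)),
    analyticAt_integral hF, ?_⟩
  obtain ⟨U, hU, htU, W, hW, hsW, hUW⟩ := exists_tube hF
  -- near `t₀`, the whole path is in `V`, and `om = omC` on it
  have hgood : ∀ᶠ t in 𝓝 t₀, ∀ τ ∈ Icc (0 : ℝ) 1, pth z₀ ζ (t, (τ : ℂ)) ∈ ball (0 : Cm 2) 3 ∧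
      𝓕.σ i t (pth z₀ ζ (t, (τ : ℂ))) ∈ V ∧
      AnalyticAt ℂ (th 𝓕 i j) (t, pth z₀ ζ (t, (τ : ℂ))) ∧
      AnalyticAt ℂ (th 𝓕 i k) (t, pth z₀ ζ (t, (τ : ℂ))) := by
    refine isCompact_Icc.eventually_forall_of_forall_eventually fun τ hτ => ?_
    have hm := hmem τ hτ
    have hc : ContinuousAt (fun q : Cm p × ℝ => (q.1, pth z₀ ζ (q.1, (q.2 : ℂ)))) (t₀, τ) := by
      have h1 : ContinuousAt (pth z₀ ζ) (t₀, (τ : ℂ)) := (analyticAt_pth hζ _).continuousAt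
      have h2 : ContinuousAt (fun q : Cm p × ℝ => (q.1, (q.2 : ℂ))) (t₀, τ) := by fun_prop
      exact continuousAt_fst.prodMk (ContinuousAt.comp (g := pth z₀ ζ)
        (f := fun q : Cm p × ℝ => (q.1, (q.2 : ℂ))) h1 h2)
    have e1 : ∀ᶠ q : Cm p × Cm 2 in 𝓝 (t₀, pth z₀ ζ (t₀, (τ : ℂ))), q.2 ∈ ball (0 : Cm 2) 3 :=
      continuousAt_snd.eventually (isOpen_ball.mem_nhds (hC3 hm))
    have e2 : ∀ᶠ q : Cm p × Cm 2 in 𝓝 (t₀, pth z₀ ζ (t₀, (τ : ℂ))), 𝓕.σ i q.1 q.2 ∈ V :=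
      (tendsto_σF 𝓕 ht₀ (hC3 hm)).eventually (hV.mem_nhds (hCV _ hm))
    have e3 := (th_spec 𝓕 ht₀ (hC3 hm) (hCj _ hm)).1.eventually_analyticAt
    have e4 := (th_spec 𝓕 ht₀ (hC3 hm) (hCk _ hm)).1.eventually_analyticAt
    filter_upwards [hc.eventually e1, hc.eventually e2, hc.eventually e3, hc.eventually e4]
      with q h1 h2 h3 h4
    exact ⟨h1, h2, h3, h4⟩
  filter_upwards [hgood, hU.mem_nhds htU] with t hg htU' γ hγ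
  have hder : ∀ τ ∈ uIcc (0 : ℝ) 1,
      HasDerivAt (fun τ : ℝ => γ (𝓕.σ i t (pth z₀ ζ (t, (τ : ℂ)))))
        (Fpath 𝓕 b i j k z₀ ζ (t, (τ : ℂ))) τ := by
    intro τ hτ
    rw [uIcc_of_le zero_le_one] at hτ
    obtain ⟨h1, h2, h3, h4⟩ := hg τ hτ
    have h5 := hγ _ h1 h2
    have h6 : HasDerivAt (fun τ : ℝ => pth z₀ ζ (t, (τ : ℂ))) (ζ t - z₀) τ := by
      have h7 : HasDerivAt (fun τ : ℝ => ((τ : ℂ)) • (ζ t - z₀)) ((1 : ℂ) • (ζ t - z₀)) τ :=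
        (Complex.ofRealCLM.hasDerivAt (x := τ)).smul_const (ζ t - z₀)
      rw [one_smul] at h7
      exact h7.const_add z₀
    have h8 := h5.comp_hasDerivAt τ h6
    rw [sub_apply, om_eq 𝓕 b h3, om_eq 𝓕 b h4] at h8
    exact h8
  have hint : IntervalIntegrable (fun τ : ℝ => Fpath 𝓕 b i j k z₀ ζ (t, (τ : ℂ))) volume 0 1 := by
    refine ContinuousOn.intervalIntegrable fun τ hτ => ?_
    rw [uIcc_of_le zero_le_one] at hτ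
    have h1 : ContinuousAt (Fpath 𝓕 b i j k z₀ ζ) (t, (τ : ℂ)) :=
      (hUW t htU' _ (hsW τ hτ)).continuousAt
    have h2 : ContinuousAt (fun τ : ℝ => (t, (τ : ℂ))) τ := by fun_prop
    exact (ContinuousAt.comp (g := Fpath 𝓕 b i j k z₀ ζ) (f := fun τ : ℝ => (t, (τ : ℂ))) h1
      h2).continuousWithinAt
  have hI := intervalIntegral.integral_eq_sub_of_hasDerivAt hder hint
  have h0 : pth z₀ ζ (t, ((0 : ℝ) : ℂ)) = z₀ := by simp [pth]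
  have h1 : pth z₀ ζ (t, ((1 : ℝ) : ℂ)) = ζ t := by simp [pth]
  rw [h0, h1] at hI
  rw [hI]
  ring

end Vale.Agent.P281.H406.TS
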