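import Vale.Agent.P281.H406.TS.Par
import Vale.Agent.P281.H64.TS.Defs

/-!
# P281, T-S, block B1 (helper406): holomorphic relative primitives of a family of 2-forms
-/

open Set Filter Metric MeasureTheory Vale.Agent.P281.H64
open scoped Topology ContDiff

noncomputable section

namespace Vale.Agent.P281.H406.TS

open Vale.Agent.P281.H64.TK Vale.Agent.P281.H64.TK.TS

variable {p : ℕ}

/-- `∫_0^1 s (t, (τ z_0, z_1)) dτ`. -/
def pr0 (s : Cm p × Cm 2 → ℂ) (q : Cm p × Cm 2) : ℂ :=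
  ∫ τ in (0 : ℝ)..1, s (q.1, ![(τ : ℂ) * q.2 0, q.2 1])

/-- The primitive `z_0 ∫_0^1 s (t, (τ z_0, z_1)) dτ`. -/
def pr (s : Cm p × Cm 2 → ℂ) (q : Cm p × Cm 2) : ℂ := q.2 0 * pr0 s q

theorem mem_ball2 {z : Cm 2} : z ∈ ball (0 : Cm 2) 3 ↔ ‖z 0‖ < 3 ∧ ‖z 1‖ < 3 := by
  rw [mem_ball_zero_iff, pi_norm_lt_iff (by norm_num), Fin.forall_fin_two]

theorem scale_mem {z : Cm 2} (hz : z ∈ ball (0 : Cm 2) 3) {τ : ℝ} (hτ : τ ∈ Icc (0 : ℝ) 1) :
    (![(τ : ℂ) * z 0, z 1] : Cm 2) ∈ ball (0 : Cm 2) 3 := by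
  rw [mem_ball2] at hz ⊢
  refine ⟨?_, by simpa using hz.2⟩
  simp only [Matrix.cons_val_zero, norm_mul, Complex.norm_real, Real.norm_eq_abs,
    abs_of_nonneg hτ.1]
  calc τ * ‖z 0‖ ≤ 1 * ‖z 0‖ := mul_le_mul_of_nonneg_right hτ.2 (norm_nonneg _)
    _ < 3 := by rw [one_mul]; exact hz.1

theorem analyticAt_scale (q : (Cm p × Cm 2) × ℂ) :
    AnalyticAt ℂ (fun q : (Cm p × Cm 2) × ℂ => (q.1.1, (![q.2 * q.1.2 0, q.1.2 1] : Cm 2))) q := by
  have h0 : AnalyticAt ℂ (fun q : (Cm p × Cm 2) × ℂ => q.1.2 0) q :=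
    (((ContinuousLinearMap.proj (R := ℂ) (φ := fun _ : Fin 2 => ℂ) 0).comp
      (ContinuousLinearMap.snd ℂ (Cm p) (Cm 2))).comp
      (ContinuousLinearMap.fst ℂ (Cm p × Cm 2) ℂ)).analyticAt q
  have h1 : AnalyticAt ℂ (fun q : (Cm p × Cm 2) × ℂ => q.1.2 1) q :=
    (((ContinuousLinearMap.proj (R := ℂ) (φ := fun _ : Fin 2 => ℂ) 1).comp
      (ContinuousLinearMap.snd ℂ (Cm p) (Cm 2))).comp
      (ContinuousLinearMap.fst ℂ (Cm p × Cm 2) ℂ)).analyticAt q
  refine AnalyticAt.prod (analyticAt_fst.comp analyticAt_fst) ?_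
  refine analyticAt_pi_iff.2 fun k => ?_
  fin_cases k
  · exact analyticAt_snd.fun_mul h0
  · exact h1

theorem analyticAt_pr0 {s : Cm p × Cm 2 → ℂ} {t : Cm p}
    (hs : ∀ z ∈ ball (0 : Cm 2) 3, AnalyticAt ℂ s (t, z)) {z : Cm 2}
    (hz : z ∈ ball (0 : Cm 2) 3) : AnalyticAt ℂ (pr0 s) (t, z) := by
  refine analyticAt_integral (X := Cm p × Cm 2)
    (G := fun q => s (q.1.1, ![q.2 * q.1.2 0, q.1.2 1])) (x₀ := (t, z)) fun τ hτ => ?_
  exact AnalyticAt.fun_comp (g := s) (hs _ (scale_mem hz hτ)) (analyticAt_scale _)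

theorem analyticAt_pr {s : Cm p × Cm 2 → ℂ} {t : Cm p}
    (hs : ∀ z ∈ ball (0 : Cm 2) 3, AnalyticAt ℂ s (t, z)) {z : Cm 2}
    (hz : z ∈ ball (0 : Cm 2) 3) : AnalyticAt ℂ (pr s) (t, z) := by
  have h0 : AnalyticAt ℂ (fun q : Cm p × Cm 2 => q.2 0) (t, z) :=
    ((ContinuousLinearMap.proj (R := ℂ) (φ := fun _ : Fin 2 => ℂ) 0).comp
      (ContinuousLinearMap.snd ℂ (Cm p) (Cm 2))).analyticAt _
  exact h0.mul (analyticAt_pr0 hs hz)

/-- `∂ (pr s) / ∂ z_0 = s`. -/
theorem fderiv_pr {s : Cm p × Cm 2 → ℂ} {t : Cm p}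
    (hs : ∀ z ∈ ball (0 : Cm 2) 3, AnalyticAt ℂ s (t, z)) {z : Cm 2}
    (hz : z ∈ ball (0 : Cm 2) 3) :
    fderiv ℂ (fun u : Cm 2 => pr s (t, u)) z (Pi.single 0 1) = s (t, z) := by
  have hpr : DifferentiableAt ℂ (fun u : Cm 2 => pr s (t, u)) z :=
    (AnalyticAt.fun_comp (f := fun u : Cm 2 => (t, u)) (analyticAt_pr hs hz)
      (by fun_prop)).differentiableAt
  have hpr0 : DifferentiableAt ℂ (fun u : Cm 2 => pr0 s (t, u)) z :=
    (AnalyticAt.fun_comp (f := fun u : Cm 2 => (t, u)) (analyticAt_pr0 hs hz)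
      (by fun_prop)).differentiableAt
  by_cases h0 : z 0 = 0
  · -- the product rule
    have h1 : HasFDerivAt (fun u : Cm 2 => u 0)
        (ContinuousLinearMap.proj (R := ℂ) (φ := fun _ : Fin 2 => ℂ) 0) z :=
      (ContinuousLinearMap.proj (R := ℂ) (φ := fun _ : Fin 2 => ℂ) 0).hasFDerivAt
    have h2 := h1.mul hpr0.hasFDerivAt
    have h3 : (fun u : Cm 2 => pr s (t, u)) = fun u => u 0 * pr0 s (t, u) := rfl
    have h2' : HasFDerivAt (fun u : Cm 2 => u 0 * pr0 s (t, u)) _ z := h2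
    rw [h3, h2'.fderiv]
    have h4 : pr0 s (t, z) = s (t, z) := by
      unfold pr0
      have h5 : ∀ τ : ℝ, (![(τ : ℂ) * z 0, z 1] : Cm 2) = z := by
        intro τ
        ext k
        fin_cases k
        · simp [h0]
        · simp
      simp only [h5]
      simp
    simp [h0, h4]
  · -- along the real line through `z_0`
    set g : ℝ → ℂ := fun r => s (t, ![(r : ℂ) * z 0, z 1]) with hg
    have hcl : ∀ r ∈ Icc (0 : ℝ) 1, ContinuousAt g r := by
      intro r hr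
      have h1 : ContinuousAt s (t, ![(r : ℂ) * z 0, z 1]) := (hs _ (scale_mem hz hr)).continuousAt
      have h2 : ContinuousAt (fun r : ℝ => (t, (![(r : ℂ) * z 0, z 1] : Cm 2))) r := by
        refine continuousAt_const.prodMk ?_
        refine continuousAt_pi.2 fun k => ?_
        fin_cases k
        · simp only [Fin.zero_eta, Matrix.cons_val_zero]; fun_prop
        · simp only [Fin.mk_one, Matrix.cons_val_one]; fun_prop
      exact ContinuousAt.comp (f := fun r : ℝ => (t, (![(r : ℂ) * z 0, z 1] : Cm 2))) (g := s) h1 h2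
    -- a neighbourhood of `1` on which everything is defined
    have hev : ∀ᶠ r : ℝ in 𝓝 1, ContinuousAt g r := by
      have h1 : AnalyticAt ℂ s (t, ![((1 : ℝ) : ℂ) * z 0, z 1]) :=
        hs _ (scale_mem hz ⟨zero_le_one, le_refl _⟩)
      have h2 : ∀ᶠ q in 𝓝 (t, (![((1 : ℝ) : ℂ) * z 0, z 1] : Cm 2)), AnalyticAt ℂ s q :=
        h1.eventually_analyticAt
      have h3 : Continuous (fun r : ℝ => (t, (![(r : ℂ) * z 0, z 1] : Cm 2))) := by
        refine continuous_const.prodMk ?_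
        refine continuous_pi fun k => ?_
        fin_cases k
        · simp only [Fin.zero_eta, Matrix.cons_val_zero]; fun_prop
        · simp only [Fin.mk_one, Matrix.cons_val_one]; fun_prop
      filter_upwards [h3.continuousAt.eventually h2] with r hr
      exact ContinuousAt.comp (f := fun r : ℝ => (t, (![(r : ℂ) * z 0, z 1] : Cm 2))) (g := s)
        hr.continuousAt h3.continuousAt
    have hint : IntervalIntegrable g volume 0 1 := by
      refine ContinuousOn.intervalIntegrable fun r hr => ?_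
      rw [uIcc_of_le zero_le_one] at hr
      exact (hcl r hr).continuousWithinAt
    have hFTC : HasDerivAt (fun r : ℝ => ∫ σ in (0 : ℝ)..r, g σ) (g 1) 1 := by
      refine intervalIntegral.integral_hasDerivAt_right hint ?_ (hcl 1 ⟨zero_le_one, le_refl _⟩)
      obtain ⟨W, hW, hWo, hW1⟩ := _root_.eventually_nhds_iff.1 hev
      exact ContinuousOn.stronglyMeasurableAtFilter hWo
        (fun r hr => (hW r hr).continuousWithinAt) 1 hW1
    have hP : ∀ᶠ r : ℝ in 𝓝 1, pr s (t, ![(r : ℂ) * z 0, z 1]) =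
        z 0 * ∫ σ in (0 : ℝ)..r, g σ := by
      filter_upwards [lt_mem_nhds (zero_lt_one' ℝ)] with r hr
      have h1 : (∫ τ in (0 : ℝ)..1, g (r * τ)) = r⁻¹ • ∫ σ in (r * 0)..(r * 1), g σ :=
        intervalIntegral.integral_comp_mul_left g hr.ne'
      have h2 : pr0 s (t, ![(r : ℂ) * z 0, z 1]) = ∫ τ in (0 : ℝ)..1, g (r * τ) := by
        unfold pr0
        refine intervalIntegral.integral_congr fun τ _ => ?_
        simp only [hg, Matrix.cons_val_zero, Matrix.cons_val_one]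
        congr 3
        push_cast
        ring
      have hr' : (r : ℂ) ≠ 0 := by exact_mod_cast hr.ne'
      simp only [pr, h2, h1, mul_zero, mul_one, Matrix.cons_val_zero]
      rw [Complex.real_smul, Complex.ofReal_inv]
      field_simp
    have hd1 : HasDerivAt (fun r : ℝ => pr s (t, ![(r : ℂ) * z 0, z 1])) (z 0 * g 1) 1 :=
      (hFTC.const_mul (z 0)).congr_of_eventuallyEq hP
    have hline : HasDerivAt (fun r : ℝ => (![(r : ℂ) * z 0, z 1] : Cm 2))
        (Pi.single 0 (z 0)) 1 := by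
      refine hasDerivAt_pi.2 fun k => ?_
      fin_cases k
      · have : HasDerivAt (fun r : ℝ => (r : ℂ) * z 0) (1 * z 0) 1 :=
          (Complex.ofRealCLM.hasDerivAt).mul_const (z 0)
        simpa using this
      · simpa using hasDerivAt_const (1 : ℝ) (z 1)
    have hz1 : (![((1 : ℝ) : ℂ) * z 0, z 1] : Cm 2) = z := by
      ext k
      fin_cases k <;> simp
    have hd2 : HasDerivAt (fun r : ℝ => pr s (t, ![(r : ℂ) * z 0, z 1]))
        (fderiv ℂ (fun u : Cm 2 => pr s (t, u)) z (Pi.single 0 (z 0))) 1 := by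
      have h1 : HasFDerivAt (fun u : Cm 2 => pr s (t, u))
          ((fderiv ℂ (fun u : Cm 2 => pr s (t, u)) z).restrictScalars ℝ)
          (![((1 : ℝ) : ℂ) * z 0, z 1] : Cm 2) := by
        rw [hz1]
        exact hpr.hasFDerivAt.restrictScalars ℝ
      exact h1.comp_hasDerivAt (1 : ℝ) hline
    have h5 := hd1.unique hd2
    have h6 : (Pi.single 0 (z 0) : Cm 2) = z 0 • Pi.single 0 1 := by
      ext k
      fin_cases k <;> simp
    rw [h6, map_smul, smul_eq_mul] at h5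
    have h7 := mul_left_cancel₀ h0 h5
    rw [← h7]
    simp only [hg, hz1]

end Vale.Agent.P281.H406.TS
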