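import Vale.Agent.P281.H64.TS.Spec2
import Vale.Agent.P281.H406.TS.Path
import Vale.Agent.P281.H406.TS.Prim
import Vale.Agent.P281.H406.TS.Cls

/-!
# P281, project T-S, block B1 (helper406): the periods of a holomorphic family are holomorphic
-/

open Set Filter Metric MeasureTheory Vale.Agent.P281.H64
open scoped Topology ContDiff ComplexConjugate

noncomputable section

namespace Vale.Agent.P281.H406.TS

open Vale.Agent.P281.H64.TK Vale.Agent.P281.H64.TK.TS Vale.Agent.P281.H89.TS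

section
variable {p : ℕ} {E Γ : Type} [TopologicalSpace E] [Group Γ] [MulAction Γ E]

/-- The traces of the member `b` of the covering in the coordinates of the member `a`. -/
def Cab {d : ℕ} {S : Sheets d E Γ} {A : Type} (G : Good S A) (a b : A) : Set (Cm d) :=
  {z | z ∈ eb (G.c a) (G.r a) ∧ S.σ (G.i a) z ∈ S.σ (G.i b) '' eb (G.c b) (G.r b)}

theorem Cab_iff {d : ℕ} {S : Sheets d E Γ} {A : Type} (G : Good S A) {a b : A} {z : Cm d} :
    z ∈ Cab G a b ↔ z ∈ eb (G.c a) (G.r a) ∧ S.σ (G.i a) z ∈ G.U b := Iff.rfl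

/-- The primitives at the time `t`: the Čech data of a closed form which is the holomorphic form
`s dz_0 ∧ dz_1` in the sheets of the time `t`. -/
theorem exists_gam (PO : PoinStmt) (𝓕 : Fam p 2 E Γ) {t₀ t : Cm p} (ht₀ : t₀ ∈ 𝓕.T)
    (ht : t ∈ 𝓕.T) {A : Type} (G : Good (𝓕.at t₀ ht₀) A)
    (hcov : ∀ a, ∀ z ∈ eb (G.c a) (G.r a),
      𝓕.σ (G.i a) t₀ z ∈ 𝓕.σ (G.i a) t '' ball (0 : Cm 2) 3)
    {b s : Fin 𝓕.N → Cm p × Cm 2 → ℂ}
    (hb : ∀ i, ∀ z ∈ ball (0 : Cm 2) 3, AnalyticAt ℂ (fun z => b i (t, z)) z)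
    (hbs : ∀ i, ∀ z ∈ ball (0 : Cm 2) 3,
      fderiv ℂ (fun z => b i (t, z)) z (Pi.single 0 1) = s i (t, z))
    {α : Fin 𝓕.N → Cm 2 → L2 2}
    (hα : Pull2 (𝓕.at t₀ ht₀) (𝓕.at t ht) id α (fun i z => sf2 (s i (t, z))))
    {β : A → Fin 𝓕.N → Cm 2 → L1 2} {g : A → A → E → ℂ} {c : A → A → A → ℂ}
    (hco : IsCo (𝓕.at t₀ ht₀) G.U α β g c) :
    ∃ γ : A → A → E → ℂ,
      (∀ a b' e', ∀ e ∈ G.U a ∩ G.U b' ∩ G.U e', γ b' e' e - γ a e' e + γ a b' e = c a b' e') ∧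
      ∀ a b' i, ∀ w ∈ ball (0 : Cm 2) 3, 𝓕.σ i t w ∈ G.U a ∩ G.U b' →
        HasFDerivAt (fun u => γ a b' (𝓕.σ i t u)) (om 𝓕 b i (G.i a) t w - om 𝓕 b i (G.i b') t w)
          w := by
  have hmemU : ∀ a, ∀ z ∈ eb (G.c a) (G.r a), 𝓕.σ (G.i a) t₀ z ∈ G.U a :=
    fun a z hz => mem_image_of_mem _ hz
  have hh : ∀ a, ∃ h : E → ℂ, ∀ z ∈ eb (G.c a) (G.r a),
      HasFDerivAt (fun u => h (𝓕.σ (G.i a) t₀ u))
      ((b (G.i a) (t, kap (𝓕.σ (G.i a) t) (𝓕.σ (G.i a) t₀ z)) • pj).comp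
        (fderiv ℝ (fun u => kap (𝓕.σ (G.i a) t) (𝓕.σ (G.i a) t₀ u)) z) - β a (G.i a) z) z := by
    intro a
    refine exists_h PO 𝓕 ht₀ ht (isOpen_eb _ _) (convex_eb _ _) (eb_sub G a) (hcov a)
      (b := fun z => b (G.i a) (t, z)) (s := fun z => s (G.i a) (t, z)) (hb _) (hbs _)
      (β := β a (G.i a)) (α := α (G.i a)) ?_ ?_ ?_
    · intro z hz
      exact (hco.f1 a).smooth (G.i a) z (eb_sub G a hz) (hmemU a z hz)
    · intro z hz u v
      exact hco.d1 a (G.i a) z (eb_sub G a hz) (hmemU a z hz) u v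
    · intro z hz u v
      have h1 := trans_smooth 𝓕 ht₀ ht (eb_sub G a hz) (hcov a z hz)
      exact hα (G.i a) (G.i a) z (eb_sub G a hz) _ h1.2.self_of_nhds.1
        (fun u => kap (𝓕.σ (G.i a) t) (𝓕.σ (G.i a) t₀ u))
        ⟨h1.1, rfl, h1.2.mono fun u hu => hu.2⟩ u v
  choose h hh using hh
  refine ⟨fun a b' e => g a b' e + h a e - h b' e, fun a b' e' e he => ?_,
    fun a b' i w hw hwV => ?_⟩
  · rw [← hco.co a b' e' e he]
    ring
  · have hA := hasFDerivAt_h 𝓕 (b := b) ht₀ ht (eb_sub G a) (hcov a) (hh a) hw hwV.1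
    have hB := hasFDerivAt_h 𝓕 (b := b) ht₀ ht (eb_sub G b') (hcov b') (hh b') hw hwV.2
    obtain ⟨hψa, hψae⟩ := trans_smooth 𝓕 ht ht₀ hw (j := G.i a)
      (image_mono (eb_sub G a) hwV.1)
    obtain ⟨hψb, hψbe⟩ := trans_smooth 𝓕 ht ht₀ hw (j := G.i b')
      (image_mono (eb_sub G b') hwV.2)
    have e1 : 𝓕.σ (G.i a) t₀ (kap (𝓕.σ (G.i a) t₀) (𝓕.σ i t w)) = 𝓕.σ i t w :=
      hψae.self_of_nhds.2.symm
    have hg := hasFDerivAt_rep (𝓕.at t₀ ht₀) (hco.sm a b') (hco.d0 a b') (ρ := 𝓕.σ i t) (w := w)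
      (j := G.i a) (ψ := fun u => kap (𝓕.σ (G.i a) t₀) (𝓕.σ i t u))
      (hψa.differentiableAt (by simp)) hψae.self_of_nhds.1 (hψae.mono fun u hu => hu.2)
      (by
        have : 𝓕.σ (G.i a) t₀ (kap (𝓕.σ (G.i a) t₀) (𝓕.σ i t w)) ∈ G.U a ∩ G.U b' := by
          rw [e1]; exact hwV
        exact this)
    have hr := rep_eq (𝓕.at t₀ ht₀) (hco.f1 b') (ρ := 𝓕.σ i t) (w := w) (j₁ := G.i a)
      (j₂ := G.i b') (ψ₁ := fun u => kap (𝓕.σ (G.i a) t₀) (𝓕.σ i t u))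
      (ψ₂ := fun u => kap (𝓕.σ (G.i b') t₀) (𝓕.σ i t u))
      (hψa.differentiableAt (by simp)) (hψb.differentiableAt (by simp)) hψae.self_of_nhds.1
      hψbe.self_of_nhds.1 (hψae.mono fun u hu => hu.2) (hψbe.mono fun u hu => hu.2)
      (by
        have : 𝓕.σ (G.i a) t₀ (kap (𝓕.σ (G.i a) t₀) (𝓕.σ i t w)) ∈ G.U b' := by
          rw [e1]; exact hwV.2
        exact this)
    have hsum := (hg.add hA).sub hB
    have e2 : ((β a (G.i a) (kap (𝓕.σ (G.i a) t₀) (𝓕.σ i t w)) -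
          β b' (G.i a) (kap (𝓕.σ (G.i a) t₀) (𝓕.σ i t w))).comp
          (fderiv ℝ (fun u => kap (𝓕.σ (G.i a) t₀) (𝓕.σ i t u)) w) +
        (om 𝓕 b i (G.i a) t w - (β a (G.i a) (kap (𝓕.σ (G.i a) t₀) (𝓕.σ i t w))).comp
          (fderiv ℝ (fun u => kap (𝓕.σ (G.i a) t₀) (𝓕.σ i t u)) w)) -
        (om 𝓕 b i (G.i b') t w - (β b' (G.i b') (kap (𝓕.σ (G.i b') t₀) (𝓕.σ i t w))).comp
          (fderiv ℝ (fun u => kap (𝓕.σ (G.i b') t₀) (𝓕.σ i t u)) w))) =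
        om 𝓕 b i (G.i a) t w - om 𝓕 b i (G.i b') t w := by
      rw [ContinuousLinearMap.sub_comp, ← hr]
      abel
    rw [← e2]
    exact hsum

end

/-- **B1**: the periods of a holomorphic family are holomorphic. -/
theorem holP : GoodStmt → PoinStmt → CoExStmt → CoCobStmt → HolPStmt := by
  intro hGood PO hCE hCC p E Γ _ _ _ _ _ _ 𝓕 T' hT' s t₀ ht₀ n M α hT'o hs hα
  have hT₀ : t₀ ∈ 𝓕.T := hT' ht₀
  obtain ⟨A, _, G, -⟩ := hGood 2 E Γ (𝓕.at t₀ hT₀) two_pos 1 one_pos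
  choose βk gk ck hk using fun k => hCE 2 E Γ (𝓕.at t₀ hT₀) A G (M.b k) two_pos (M.closed k)
  have hN : ∀ k, IsCo (𝓕.at t₀ hT₀) G.U (M.b k) (βk k) (gk k) (ck k) := hk
  have hind : ∀ y : Fin n → ℂ, IsCob (K3 G.U) (fun a b e => ∑ k, y k * ck k a b e) → y = 0 := by
    intro y hy
    refine M.indep y ?_
    have h1 : F1On (𝓕.at t₀ hT₀) univ (fun _ _ => (0 : L1 2)) :=
      ⟨fun i z _ _ => contDiffAt_const, fun i j z _ z' _ _ ψ _ v => by simp⟩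
    have h2 := isCo_comb (𝓕.at t₀ hT₀) G.U y hN h1 (α := fun i z => ∑ k, y k • M.b k i z) (by
      intro i z hz _ u v
      simp)
    exact ((hCC 2 E Γ (𝓕.at t₀ hT₀) A G _ _ _ _ two_pos
      (cl2_comb (𝓕.at t₀ hT₀) y M.closed) h2).2).2 hy
  obtain ⟨L, hL⟩ := exists_func (K3 G.U) ck hind
  -- the holomorphic primitives in the sheets
  set b : Fin 𝓕.N → Cm p × Cm 2 → ℂ := fun i => pr (s i) with hbdef
  have hb : ∀ i, ∀ t ∈ T', ∀ z ∈ ball (0 : Cm 2) 3, AnalyticAt ℂ (b i) (t, z) :=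
    fun i t ht z hz => analyticAt_pr (fun z hz => hs.hol i t ht z hz) hz
  have hbs : ∀ i, ∀ t ∈ T', ∀ z ∈ ball (0 : Cm 2) 3,
      fderiv ℂ (fun z => b i (t, z)) z (Pi.single 0 1) = s i (t, z) :=
    fun i t ht z hz => fderiv_pr (fun z hz => hs.hol i t ht z hz) hz
  -- the base points
  have hbase : ∀ a b', ∃ z₀ : Cm 2, (Cab G a b').Nonempty → z₀ ∈ Cab G a b' := by
    intro a b'
    by_cases h : (Cab G a b').Nonempty
    · exact ⟨h.some, fun _ => h.some_mem⟩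
    · exact ⟨0, fun h' => absurd h' h⟩
  choose zb hzb using hbase
  have hUo : ∀ a, IsOpen (G.U a) := isOpen_U G
  -- the path integrals
  have hpath : ∀ (a b' : A) (ζ : Cm p → Cm 2), AnalyticAt ℂ ζ t₀ → ζ t₀ ∈ Cab G a b' →
      ∃ J : Cm p → ℂ, AnalyticAt ℂ J t₀ ∧ ∀ᶠ t in 𝓝 t₀, ∀ γ : E → ℂ,
      (∀ w ∈ ball (0 : Cm 2) 3, 𝓕.σ (G.i a) t w ∈ G.U a ∩ G.U b' →
        HasFDerivAt (fun u => γ (𝓕.σ (G.i a) t u))
          (om 𝓕 b (G.i a) (G.i a) t w - om 𝓕 b (G.i a) (G.i b') t w) w) →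
      γ (𝓕.σ (G.i a) t (ζ t)) = J t + γ (𝓕.σ (G.i a) t (zb a b')) := by
    intro a b' ζ hζ hζC
    refine path 𝓕 hT₀ (hb _ t₀ ht₀) (hb _ t₀ ht₀) ((hUo a).inter (hUo b')) (C := Cab G a b')
      (G.conv a b') (fun z hz => eb_sub G a hz.1) ?_ ?_ ?_ (hzb a b' ⟨_, hζC⟩) hζ hζC
    · intro z hz
      exact ⟨mem_image_of_mem _ hz.1, hz.2⟩
    · intro z hz
      exact mem_image_of_mem _ (eb_sub G a hz.1)
    · intro z hz
      exact image_mono (eb_sub G b') hz.2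
  -- the triple intersections
  have htri : ∀ a b' e', ∃ c : Cm p → ℂ, AnalyticAt ℂ c t₀ ∧ (K3 G.U a b' e' →
      ∀ᶠ t in 𝓝 t₀, ∀ γ : A → A → E → ℂ, ∀ c' : ℂ,
        (∀ e ∈ G.U a ∩ G.U b' ∩ G.U e', γ b' e' e - γ a e' e + γ a b' e = c') →
        (∀ a b' i, ∀ w ∈ ball (0 : Cm 2) 3, 𝓕.σ i t w ∈ G.U a ∩ G.U b' →
          HasFDerivAt (fun u => γ a b' (𝓕.σ i t u))
            (om 𝓕 b i (G.i a) t w - om 𝓕 b i (G.i b') t w) w) →
        c' - c t = γ b' e' (𝓕.σ (G.i b') t (zb b' e')) - γ a e' (𝓕.σ (G.i a) t (zb a e')) +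
          γ a b' (𝓕.σ (G.i a) t (zb a b'))) := by
    intro a b' e'
    by_cases hK : K3 G.U a b' e'
    · obtain ⟨e, ⟨⟨z, hz, hze⟩, heb⟩, hee⟩ := hK
      have hz3 := eb_sub G a hz
      have hzb' : z ∈ Cab G a b' := (Cab_iff G).2 ⟨hz, by rw [hze]; exact heb⟩
      have hze' : z ∈ Cab G a e' := (Cab_iff G).2 ⟨hz, by rw [hze]; exact hee⟩
      obtain ⟨zz, hzz, hzze⟩ := heb
      have hze2 : 𝓕.σ (G.i a) t₀ z = e := hze
      have hzze2 : 𝓕.σ (G.i b') t₀ zz = e := hzze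
      have hσe : 𝓕.σ (G.i a) t₀ z ∈ 𝓕.σ (G.i b') t₀ '' ball (0 : Cm 2) 3 := by
        rw [hze2, ← hzze2]
        exact mem_image_of_mem _ (eb_sub G b' hzz)
      have hth := th_spec 𝓕 hT₀ hz3 hσe
      have hth0 : th 𝓕 (G.i a) (G.i b') (t₀, z) = zz :=
        kap_eq (injOnF 𝓕 hT₀ _) (eb_sub G b' hzz) (by
          show 𝓕.σ (G.i a) t₀ z = 𝓕.σ (G.i b') t₀ zz
          rw [hze2, hzze2])
      have hζ : AnalyticAt ℂ (fun t => th 𝓕 (G.i a) (G.i b') (t, z)) t₀ :=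
        AnalyticAt.fun_comp (g := th 𝓕 (G.i a) (G.i b')) (f := fun t : Cm p => (t, z)) hth.1
          (analyticAt_id.prod analyticAt_const)
      obtain ⟨J1, hJ1, hJ1'⟩ := hpath a b' (fun _ => z) analyticAt_const hzb'
      obtain ⟨J2, hJ2, hJ2'⟩ := hpath a e' (fun _ => z) analyticAt_const hze'
      obtain ⟨J3, hJ3, hJ3'⟩ := hpath b' e' (fun t => th 𝓕 (G.i a) (G.i b') (t, z)) hζ (by
        show th 𝓕 (G.i a) (G.i b') (t₀, z) ∈ Cab G b' e'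
        rw [hth0]
        exact (Cab_iff G).2 ⟨hzz, by rw [hzze]; exact hee⟩)
      refine ⟨fun t => J3 t - J2 t + J1 t, (hJ3.fun_sub hJ2).fun_add hJ1, fun _ => ?_⟩
      have hc1 : Tendsto (fun t : Cm p => 𝓕.σ (G.i a) t z) (𝓝 t₀) (𝓝 (𝓕.σ (G.i a) t₀ z)) := by
        have h1 : Tendsto (fun t : Cm p => (t, z)) (𝓝 t₀) (𝓝 (t₀, z)) :=
          (by fun_prop : Continuous fun t : Cm p => (t, z)).tendsto t₀
        exact (tendsto_σF 𝓕 hT₀ hz3).comp h1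
      have hV : ∀ᶠ t in 𝓝 t₀, 𝓕.σ (G.i a) t z ∈ G.U a ∩ G.U b' ∩ G.U e' := by
        refine hc1.eventually ((((hUo a).inter (hUo b')).inter (hUo e')).mem_nhds ?_)
        exact ⟨⟨mem_image_of_mem _ hz, hzb'.2⟩, hze'.2⟩
      have hth' : ∀ᶠ t in 𝓝 t₀, 𝓕.σ (G.i a) t z =
          𝓕.σ (G.i b') t (th 𝓕 (G.i a) (G.i b') (t, z)) := by
        have h1 : Tendsto (fun t : Cm p => (t, z)) (𝓝 t₀) (𝓝 (t₀, z)) :=
          (by fun_prop : Continuous fun t : Cm p => (t, z)).tendsto t₀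
        exact (h1.eventually hth.2).mono fun t ht => ht.2
      filter_upwards [hJ1', hJ2', hJ3', hV, hth'] with t h1 h2 h3 h4 h5 γ c' hγ hγ'
      have k1 := h1 (γ a b') (fun w hw hwV => hγ' a b' _ w hw hwV)
      have k2 := h2 (γ a e') (fun w hw hwV => hγ' a e' _ w hw hwV)
      have k3 := h3 (γ b' e') (fun w hw hwV => hγ' b' e' _ w hw hwV)
      have k4 := hγ _ h4
      beta_reduce at k1 k2 k3
      rw [← h5] at k3
      rw [k1, k2, k3] at k4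
      rw [← k4]
      ring
    · exact ⟨fun _ => 0, analyticAt_const, fun h => absurd h hK⟩
  choose cc hcc hcc' using htri
  -- the main identity near `t₀`
  have hcov : ∀ᶠ t in 𝓝 t₀, ∀ a, ∀ z ∈ eb (G.c a) (G.r a),
      𝓕.σ (G.i a) t₀ z ∈ 𝓕.σ (G.i a) t '' ball (0 : Cm 2) 3 := by
    refine eventually_all.2 fun a => ?_
    have h1 := eventually_cover 𝓕 hT₀ (i := G.i a) (isCompact_closedBall (0 : Cm 2) 2)
      (closedBall_subset_ball (by norm_num))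
    filter_upwards [h1] with t ht z hz
    refine ht z (ball_subset_closedBall (G.sub a ?_))
    simp only [eb, mem_ofPred_eq] at hz ⊢
    nlinarith [G.pos a]
  have hcc2 : ∀ᶠ t in 𝓝 t₀, ∀ a b' e', K3 G.U a b' e' → ∀ γ : A → A → E → ℂ, ∀ c' : ℂ,
        (∀ e ∈ G.U a ∩ G.U b' ∩ G.U e', γ b' e' e - γ a e' e + γ a b' e = c') →
        (∀ a b' i, ∀ w ∈ ball (0 : Cm 2) 3, 𝓕.σ i t w ∈ G.U a ∩ G.U b' →
          HasFDerivAt (fun u => γ a b' (𝓕.σ i t u))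
            (om 𝓕 b i (G.i a) t w - om 𝓕 b i (G.i b') t w) w) →
        c' - cc a b' e' t =
          γ b' e' (𝓕.σ (G.i b') t (zb b' e')) - γ a e' (𝓕.σ (G.i a) t (zb a e')) +
          γ a b' (𝓕.σ (G.i a) t (zb a b')) := by
    refine eventually_all.2 fun a => eventually_all.2 fun b' => eventually_all.2 fun e' => ?_
    by_cases hK : K3 G.U a b' e'
    · filter_upwards [hcc' a b' e' hK] with t ht _
      exact ht
    · exact Eventually.of_forall fun t h => absurd h hK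
  have hmain : ∀ᶠ t in 𝓝 t₀, M.cl (α t) = L (fun a b' e' => cc a b' e' t) := by
    filter_upwards [hT'o.mem_nhds ht₀, hcov, hcc2] with t ht h1 h2
    obtain ⟨η, hη, hη'⟩ := M.ex (α t) (hα t ht).1
    have hco := isCo_comb (𝓕.at t₀ hT₀) G.U (M.cl (α t)) hN hη hη'
    obtain ⟨γ, hγ, hγ'⟩ := exists_gam PO 𝓕 hT₀ (hT' ht) G h1 (b := b) (s := s)
      (fun i z hz => AnalyticAt.fun_comp (g := b i) (f := fun z : Cm 2 => (t, z)) (hb i t ht z hz)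
        (analyticAt_const.prod analyticAt_id)) (fun i z hz => hbs i t ht z hz) (hα t ht).2 hco
    refine hL (M.cl (α t)) _ (fun a b' => γ a b' (𝓕.σ (G.i a) t (zb a b'))) ?_
    intro a b' e' hK
    exact h2 a b' e' hK γ _ (hγ a b' e') hγ'
  intro k
  have hana : AnalyticAt ℂ (fun t => (fun a b' e' => cc a b' e' t : A → A → A → ℂ)) t₀ :=
    analyticAt_pi_iff.2 fun a => analyticAt_pi_iff.2 fun b' => analyticAt_pi_iff.2 fun e' =>
      hcc a b' e'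
  have hana2 : AnalyticAt ℂ (fun t => LinearMap.toContinuousLinearMap L
      (fun a b' e' => cc a b' e' t : A → A → A → ℂ)) t₀ :=
    AnalyticAt.fun_comp (g := LinearMap.toContinuousLinearMap L)
      (f := fun t => (fun a b' e' => cc a b' e' t : A → A → A → ℂ))
      ((LinearMap.toContinuousLinearMap L).analyticAt _) hana
  have hana3 := analyticAt_pi_iff.1 hana2 k
  refine hana3.congr ?_
  filter_upwards [hmain] with t ht
  rw [ht]
  rfl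

end Vale.Agent.P281.H406.TS
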