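import Vale.Agent.P281.H406.TS.Sh

/-!
# P281, T-S, block B1 (helper406): primitives on the members of the covering
-/

open Set Filter Metric MeasureTheory Vale.Agent.P281.H64
open scoped Topology ContDiff ComplexConjugate

noncomputable section

namespace Vale.Agent.P281.H406.TS

open Vale.Agent.P281.H64.TK Vale.Agent.P281.H64.TK.TS Vale.Agent.P281.H89.TS

/-- The coordinate `z_1`. -/
def pj : Cm 2 →L[ℝ] ℂ := ContinuousLinearMap.proj (R := ℝ) (φ := fun _ : Fin 2 => ℂ) 1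

/-- `d (b dz_1) = (∂b / ∂z_0) dz_0 ∧ dz_1`. -/
theorem alt_pj {b : Cm 2 → ℂ} {z : Cm 2} (hb : AnalyticAt ℂ b z) (u v : Cm 2) :
    fderiv ℝ (fun z => b z • pj) z u v - fderiv ℝ (fun z => b z • pj) z v u =
      sf2 (fderiv ℂ b z (Pi.single 0 1)) u v := by
  have h1 : HasFDerivAt b ((fderiv ℂ b z).restrictScalars ℝ) z :=
    hb.differentiableAt.hasFDerivAt.restrictScalars ℝ
  have h2 : HasFDerivAt (fun z => b z • pj)
      (((fderiv ℂ b z).restrictScalars ℝ).smulRight pj) z := h1.smul_const pj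
  have h3 : ∀ u : Cm 2, fderiv ℂ b z u =
      u 0 * fderiv ℂ b z (Pi.single 0 1) + u 1 * fderiv ℂ b z (Pi.single 1 1) := by
    intro u
    have e : u = u 0 • (Pi.single 0 1 : Cm 2) + u 1 • (Pi.single 1 1 : Cm 2) := by
      ext k
      fin_cases k <;> simp
    conv_lhs => rw [e]
    rw [map_add, map_smul, map_smul, smul_eq_mul, smul_eq_mul]
  rw [h2.fderiv]
  have e1 : (((fderiv ℂ b z).restrictScalars ℝ).smulRight pj : Cm 2 →L[ℝ] L1 2) u v =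
      fderiv ℂ b z u * v 1 := rfl
  have e2 : (((fderiv ℂ b z).restrictScalars ℝ).smulRight pj : Cm 2 →L[ℝ] L1 2) v u =
      fderiv ℂ b z v * u 1 := rfl
  have e3 : sf2 (fderiv ℂ b z (Pi.single 0 1)) u v =
      fderiv ℂ b z (Pi.single 0 1) * (u 0 * v 1 - u 1 * v 0) := rfl
  rw [e1, e2, e3, h3 u, h3 v]
  ring

/-- The pull-back commutes with `d`. -/
theorem alt_pull {d : ℕ} {B : Cm d → L1 d} {φ : Cm d → Cm d} {z : Cm d}
    (hφ : ContDiffAt ℝ ∞ φ z) (hB : DifferentiableAt ℝ B (φ z)) (u v : Cm d) :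
    fderiv ℝ (fun z => (B (φ z)).comp (fderiv ℝ φ z)) z u v -
      fderiv ℝ (fun z => (B (φ z)).comp (fderiv ℝ φ z)) z v u =
    fderiv ℝ B (φ z) (fderiv ℝ φ z u) (fderiv ℝ φ z v) -
      fderiv ℝ B (φ z) (fderiv ℝ φ z v) (fderiv ℝ φ z u) := by
  have h1 : HasFDerivAt (fun z => B (φ z)) ((fderiv ℝ B (φ z)).comp (fderiv ℝ φ z)) z :=
    hB.hasFDerivAt.comp z (hφ.differentiableAt (by simp)).hasFDerivAt
  have h2 : HasFDerivAt (fderiv ℝ φ) (fderiv ℝ (fderiv ℝ φ) z) z :=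
    ((hφ.fderiv_right (m := 1) (by norm_cast)).differentiableAt (by simp)).hasFDerivAt
  have h3 := h1.clm_comp h2
  have hle : minSmoothness ℝ 2 ≤ (∞ : WithTop ℕ∞) := by
    simp only [minSmoothness_of_isRCLikeNormedField]
    norm_cast
  have hsym : ∀ u v, fderiv ℝ (fderiv ℝ φ) z u v = fderiv ℝ (fderiv ℝ φ) z v u :=
    fun u v => (hφ.isSymmSndFDerivAt hle).eq u v
  rw [h3.fderiv]
  simp only [add_apply, ContinuousLinearMap.comp_apply,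
    ContinuousLinearMap.compL_apply, ContinuousLinearMap.flip_apply]
  rw [hsym u v]
  abel

variable {p : ℕ} {E Γ : Type} [TopologicalSpace E] [Group Γ] [MulAction Γ E]

/-- The primitive on a convex set. -/
theorem exists_h (PO : PoinStmt) (𝓕 : Fam p 2 E Γ) {t₀ t : Cm p} (ht₀ : t₀ ∈ 𝓕.T) (ht : t ∈ 𝓕.T)
    {i : Fin 𝓕.N} {C : Set (Cm 2)} (hCo : IsOpen C) (hCc : Convex ℝ C)
    (hC3 : C ⊆ ball (0 : Cm 2) 3)
    (hcov : ∀ z ∈ C, 𝓕.σ i t₀ z ∈ 𝓕.σ i t '' ball (0 : Cm 2) 3) {b s : Cm 2 → ℂ}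
    (hb : ∀ z ∈ ball (0 : Cm 2) 3, AnalyticAt ℂ b z)
    (hbs : ∀ z ∈ ball (0 : Cm 2) 3, fderiv ℂ b z (Pi.single 0 1) = s z)
    {β : Cm 2 → L1 2} {α : Cm 2 → L2 2} (hβ : ∀ z ∈ C, ContDiffAt ℝ ∞ β z)
    (hβα : ∀ z ∈ C, ∀ u v, fderiv ℝ β z u v - fderiv ℝ β z v u = α z u v)
    (hα : ∀ z ∈ C, ∀ u v, α z u v = sf2 (s (kap (𝓕.σ i t) (𝓕.σ i t₀ z)))
      (fderiv ℝ (fun u => kap (𝓕.σ i t) (𝓕.σ i t₀ u)) z u)
      (fderiv ℝ (fun u => kap (𝓕.σ i t) (𝓕.σ i t₀ u)) z v)) :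
    ∃ h : E → ℂ, ∀ z ∈ C, HasFDerivAt (fun u => h (𝓕.σ i t₀ u))
      ((b (kap (𝓕.σ i t) (𝓕.σ i t₀ z)) • pj).comp
        (fderiv ℝ (fun u => kap (𝓕.σ i t) (𝓕.σ i t₀ u)) z) - β z) z := by
  set φ : Cm 2 → Cm 2 := fun u => kap (𝓕.σ i t) (𝓕.σ i t₀ u) with hφdef
  have hφ : ∀ z ∈ C, ContDiffAt ℝ ∞ φ z := fun z hz =>
    (trans_smooth 𝓕 ht₀ ht (hC3 hz) (hcov z hz)).1
  have hφ3 : ∀ z ∈ C, φ z ∈ ball (0 : Cm 2) 3 := fun z hz =>
    (trans_smooth 𝓕 ht₀ ht (hC3 hz) (hcov z hz)).2.self_of_nhds.1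
  set B : Cm 2 → L1 2 := fun z => b z • pj with hB
  have hBs : ∀ z ∈ ball (0 : Cm 2) 3, ContDiffAt ℝ ∞ B z := fun z hz =>
    ((hb z hz).restrictScalars (𝕜 := ℝ)).contDiffAt.smul contDiffAt_const
  have hpb : ∀ z ∈ C, ContDiffAt ℝ ∞ (fun z => (B (φ z)).comp (fderiv ℝ φ z)) z := by
    intro z hz
    refine ContDiffAt.clm_comp ?_ ((hφ z hz).fderiv_right (by simp))
    exact ContDiffAt.comp z (hBs _ (hφ3 z hz)) (hφ z hz)
  have hsm : ∀ z ∈ C, ContDiffAt ℝ ∞ (fun z => (B (φ z)).comp (fderiv ℝ φ z) - β z) z :=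
    fun z hz => (hpb z hz).sub (hβ z hz)
  obtain ⟨g, hg, hg'⟩ := PO.2 2 C hCo hCc (fun z => (B (φ z)).comp (fderiv ℝ φ z) - β z)
    (fun z hz => (hsm z hz).contDiffWithinAt) (by
      intro z hz u v
      have h1 : DifferentiableAt ℝ (fun z => (B (φ z)).comp (fderiv ℝ φ z)) z :=
        (hpb z hz).differentiableAt (by simp)
      have h2 : DifferentiableAt ℝ β z := (hβ z hz).differentiableAt (by simp)
      have h3 : fderiv ℝ (fun z => (B (φ z)).comp (fderiv ℝ φ z) - β z) z =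
        fderiv ℝ (fun z => (B (φ z)).comp (fderiv ℝ φ z)) z - fderiv ℝ β z :=
        fderiv_fun_sub h1 h2
      rw [h3]
      simp only [sub_apply]
      have h4 := alt_pull (hφ z hz) ((hBs _ (hφ3 z hz)).differentiableAt (by simp)) u v
      have h5 := alt_pj (hb _ (hφ3 z hz)) (fderiv ℝ φ z u) (fderiv ℝ φ z v)
      rw [hbs _ (hφ3 z hz)] at h5
      have h6 := hα z hz u v
      have h7 := hβα z hz u v
      rw [h6, ← h5, ← h4] at h7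
      linear_combination -h7)
  refine ⟨fun e => g (kap (𝓕.σ i t₀) e), fun z hz => ?_⟩
  have h1 : HasFDerivAt g ((B (φ z)).comp (fderiv ℝ φ z) - β z) z := by
    have h2 : DifferentiableAt ℝ g z :=
      (hg.contDiffAt (hCo.mem_nhds hz)).differentiableAt (by simp)
    have h3 := hg' z hz
    rw [← h3]
    exact h2.hasFDerivAt
  refine h1.congr_of_eventuallyEq ?_
  filter_upwards [isOpen_ball.mem_nhds (hC3 hz)] with u hu
  rw [kap_eq (injOnF 𝓕 ht₀ i) hu rfl]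

/-- The holomorphic relative primitive of the sheet `j`, in the sheet `i`. -/
def om (𝓕 : Fam p 2 E Γ) (b : Fin 𝓕.N → Cm p × Cm 2 → ℂ) (i j : Fin 𝓕.N) (t : Cm p) (w : Cm 2) :
    L1 2 :=
  (b j (t, th 𝓕 i j (t, w)) • pj).comp (fderiv ℝ (fun u => th 𝓕 i j (t, u)) w)

/-- The derivative of `h_a` in the sheets of the time `t`. -/
theorem hasFDerivAt_h (𝓕 : Fam p 2 E Γ) {b : Fin 𝓕.N → Cm p × Cm 2 → ℂ} {t₀ t : Cm p}
    (ht₀ : t₀ ∈ 𝓕.T) (ht : t ∈ 𝓕.T) {j : Fin 𝓕.N} {C : Set (Cm 2)}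
    (hC3 : C ⊆ ball (0 : Cm 2) 3)
    (hcov : ∀ z ∈ C, 𝓕.σ j t₀ z ∈ 𝓕.σ j t '' ball (0 : Cm 2) 3) {β : Cm 2 → L1 2} {h : E → ℂ}
    (hh : ∀ z ∈ C, HasFDerivAt (fun u => h (𝓕.σ j t₀ u))
      ((b j (t, kap (𝓕.σ j t) (𝓕.σ j t₀ z)) • pj).comp
        (fderiv ℝ (fun u => kap (𝓕.σ j t) (𝓕.σ j t₀ u)) z) - β z) z)
    {i : Fin 𝓕.N} {w : Cm 2} (hw : w ∈ ball (0 : Cm 2) 3) (hwC : 𝓕.σ i t w ∈ 𝓕.σ j t₀ '' C) :
    HasFDerivAt (fun u => h (𝓕.σ i t u))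
      (om 𝓕 b i j t w - (β (kap (𝓕.σ j t₀) (𝓕.σ i t w))).comp
        (fderiv ℝ (fun u => kap (𝓕.σ j t₀) (𝓕.σ i t u)) w)) w := by
  obtain ⟨hψ, hψe⟩ := trans_smooth 𝓕 ht ht₀ hw (image_mono hC3 hwC)
  set ψ : Cm 2 → Cm 2 := fun u => kap (𝓕.σ j t₀) (𝓕.σ i t u) with hψdef
  have hψC : ψ w ∈ C := by
    obtain ⟨z, hz, hze⟩ := hwC
    have : ψ w = z := kap_eq (injOnF 𝓕 ht₀ j) (hC3 hz) hze.symm
    rw [this]
    exact hz
  set φ : Cm 2 → Cm 2 := fun u => kap (𝓕.σ j t) (𝓕.σ j t₀ u) with hφdef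
  have hφ : ContDiffAt ℝ ∞ φ (ψ w) := (trans_smooth 𝓕 ht₀ ht (hC3 hψC) (hcov _ hψC)).1
  have h1 := (hh _ hψC).comp w (hψ.differentiableAt (by simp)).hasFDerivAt
  have h2 : (fun u => h (𝓕.σ i t u)) =ᶠ[𝓝 w] ((fun u => h (𝓕.σ j t₀ u)) ∘ ψ) := by
    filter_upwards [hψe] with u hu
    simp only [Function.comp_apply]
    rw [← hu.2]
  have h3 := h1.congr_of_eventuallyEq h2
  have h4 : ∀ᶠ u in 𝓝 w, th 𝓕 i j (t, u) = φ (ψ u) := by
    filter_upwards [hψe] with u hu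
    simp only [th, hφdef]
    rw [← hu.2]
  have h5 : fderiv ℝ (fun u => th 𝓕 i j (t, u)) w = (fderiv ℝ φ (ψ w)).comp (fderiv ℝ ψ w) := by
    rw [Filter.EventuallyEq.fderiv_eq h4]
    exact fderiv_fun_comp w (hφ.differentiableAt (by simp)) (hψ.differentiableAt (by simp))
  have h6 : om 𝓕 b i j t w =
      ((b j (t, φ (ψ w)) • pj).comp (fderiv ℝ φ (ψ w))).comp (fderiv ℝ ψ w) := by
    simp only [om]
    rw [h5, h4.self_of_nhds]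
    rfl
  rw [h6, ← ContinuousLinearMap.sub_comp]
  exact h3

end Vale.Agent.P281.H406.TS
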