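import Vale.Agent.P281.H89.TS.Basic

/-!
# P281, T-S, block B1 (helper406): transition maps of a family
-/

open Set Filter Metric MeasureTheory Vale.Agent.P281.H64
open scoped Topology ContDiff ComplexConjugate

noncomputable section

namespace Vale.Agent.P281.H406.TS

open Vale.Agent.P281.H64.TK Vale.Agent.P281.H64.TK.TS Vale.Agent.P281.H89.TS

variable {p d : ℕ} {E Γ : Type} [TopologicalSpace E] [Group Γ] [MulAction Γ E]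

/-- The inverse of the sheet `f` on the ball of radius `3`. -/
def kap (f : Cm d → E) (e : E) : Cm d := Function.invFunOn f (ball (0 : Cm d) 3) e

omit [TopologicalSpace E] in
theorem kap_mem {f : Cm d → E} {e : E} (h : e ∈ f '' ball (0 : Cm d) 3) :
    kap f e ∈ ball (0 : Cm d) 3 ∧ f (kap f e) = e :=
  ⟨Function.invFunOn_mem h, Function.invFunOn_eq h⟩

omit [TopologicalSpace E] in
theorem kap_eq {f : Cm d → E} (hf : InjOn f (ball (0 : Cm d) 3)) {z : Cm d} {e : E}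
    (hz : z ∈ ball (0 : Cm d) 3) (h : e = f z) : kap f e = z := by
  subst h
  have h1 := kap_mem (mem_image_of_mem f hz)
  exact hf h1.1 hz h1.2

theorem injOn (S : Sheets d E Γ) (i : Fin S.N) : InjOn (S.σ i) (ball (0 : Cm d) 3) :=
  fun _ hz _ hw h => σ_inj S hz hw h

theorem injOnF (𝓕 : Fam p d E Γ) {t : Cm p} (ht : t ∈ 𝓕.T) (i : Fin 𝓕.N) :
    InjOn (𝓕.σ i t) (ball (0 : Cm d) 3) := injOn (𝓕.at t ht) i

/-- The transition maps between the times `t` and `t'` are smooth. -/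
theorem trans_smooth (𝓕 : Fam p d E Γ) {t t' : Cm p} (ht : t ∈ 𝓕.T) (ht' : t' ∈ 𝓕.T)
    {i j : Fin 𝓕.N} {z : Cm d} (hz : z ∈ ball (0 : Cm d) 3)
    (h : 𝓕.σ i t z ∈ 𝓕.σ j t' '' ball (0 : Cm d) 3) :
    ContDiffAt ℝ ∞ (fun u => kap (𝓕.σ j t') (𝓕.σ i t u)) z ∧
      ∀ᶠ u in 𝓝 z, kap (𝓕.σ j t') (𝓕.σ i t u) ∈ ball (0 : Cm d) 3 ∧
        𝓕.σ i t u = 𝓕.σ j t' (kap (𝓕.σ j t') (𝓕.σ i t u)) := by
  obtain ⟨w, hw, hwe⟩ := h
  obtain ⟨ψ, h1, h2, -, h3⟩ := 𝓕.smooth i j t ht t' ht' z hz w hw 1 (by rw [one_smul, hwe])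
  have h4 : ∀ᶠ u in 𝓝 z, ψ u ∈ ball (0 : Cm d) 3 :=
    h1.continuousAt.eventually (by rw [h2]; exact isOpen_ball.mem_nhds hw)
  have h5 : ∀ᶠ u in 𝓝 z, kap (𝓕.σ j t') (𝓕.σ i t u) = ψ u := by
    filter_upwards [h3, h4] with u h6 h7
    exact kap_eq (injOnF 𝓕 ht' j) h7 (by rw [h6, one_smul])
  refine ⟨h1.congr_of_eventuallyEq h5, ?_⟩
  filter_upwards [h3, h4, h5] with u h6 h7 h8
  rw [h8]
  exact ⟨h7, by rw [h6, one_smul]⟩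

/-- The holomorphic transition maps of the family. -/
def th (𝓕 : Fam p d E Γ) (i j : Fin 𝓕.N) (q : Cm p × Cm d) : Cm d :=
  kap (𝓕.σ j q.1) (𝓕.σ i q.1 q.2)

theorem th_spec (𝓕 : Fam p d E Γ) {t : Cm p} (ht : t ∈ 𝓕.T)
    {i j : Fin 𝓕.N} {z : Cm d} (hz : z ∈ ball (0 : Cm d) 3)
    (h : 𝓕.σ i t z ∈ 𝓕.σ j t '' ball (0 : Cm d) 3) :
    AnalyticAt ℂ (th 𝓕 i j) (t, z) ∧
      ∀ᶠ q in 𝓝 (t, z), th 𝓕 i j q ∈ ball (0 : Cm d) 3 ∧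
        𝓕.σ i q.1 q.2 = 𝓕.σ j q.1 (th 𝓕 i j q) := by
  obtain ⟨w, hw, hwe⟩ := h
  obtain ⟨θ, h1, h2, h3⟩ := 𝓕.hol i j t ht z hz w hw 1 (by rw [one_smul, hwe])
  have h4 : ∀ᶠ q in 𝓝 (t, z), θ q ∈ ball (0 : Cm d) 3 :=
    h1.continuousAt.eventually (by rw [h2]; exact isOpen_ball.mem_nhds hw)
  have h0 : ∀ᶠ q : Cm p × Cm d in 𝓝 (t, z), q.1 ∈ 𝓕.T :=
    continuousAt_fst.eventually (𝓕.isOpen.mem_nhds ht)
  have h5 : ∀ᶠ q in 𝓝 (t, z), th 𝓕 i j q = θ q := by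
    filter_upwards [h3, h4, h0] with q h6 h7 h8
    exact kap_eq (injOnF 𝓕 h8 j) h7 (by rw [h6, one_smul])
  refine ⟨h1.congr (h5.mono fun q hq => hq.symm), ?_⟩
  filter_upwards [h3, h4, h5] with q h6 h7 h8
  rw [h8]
  exact ⟨h7, by rw [h6, one_smul]⟩

/-- The sheets of the family are jointly continuous. -/
theorem tendsto_σF (𝓕 : Fam p d E Γ) {t : Cm p} (ht : t ∈ 𝓕.T) {i : Fin 𝓕.N} {z : Cm d}
    (hz : z ∈ ball (0 : Cm d) 3) :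
    Tendsto (fun q : Cm p × Cm d => 𝓕.σ i q.1 q.2) (𝓝 (t, z)) (𝓝 (𝓕.σ i t z)) := by
  have h1 := (𝓕.map_nhds i t ht z hz).le
  exact (continuous_snd.tendsto (t, 𝓕.σ i t z)).comp h1

/-- Points of a compact part of the sheet `i` at the time `t` are in the sheet `i` at nearby
times. -/
theorem eventually_cover (𝓕 : Fam p d E Γ) {t : Cm p} (ht : t ∈ 𝓕.T) {i : Fin 𝓕.N} {K : Set (Cm d)}
    (hK : IsCompact K) (hK3 : K ⊆ ball (0 : Cm d) 3) :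
    ∀ᶠ t' in 𝓝 t, ∀ z ∈ K, 𝓕.σ i t z ∈ 𝓕.σ i t' '' ball (0 : Cm d) 3 := by
  refine hK.eventually_forall_of_forall_eventually fun z hz => ?_
  have hz3 := hK3 hz
  have h1 : (fun q : Cm p × Cm d => (q.1, 𝓕.σ i q.1 q.2)) '' (univ ×ˢ ball (0 : Cm d) 3) ∈
      𝓝 (t, 𝓕.σ i t z) := by
    rw [← 𝓕.map_nhds i t ht z hz3]
    exact image_mem_map ((isOpen_univ.prod isOpen_ball).mem_nhds ⟨mem_univ _, hz3⟩)
  have h2 : Tendsto (fun q : Cm p × Cm d => (q.1, 𝓕.σ i t q.2)) (𝓝 (t, z))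
      (𝓝 (t, 𝓕.σ i t z)) := by
    rw [nhds_prod_eq, nhds_prod_eq]
    exact tendsto_fst.prodMk ((tendsto_σ (𝓕.at t ht) (i := i) hz3).comp tendsto_snd)
  filter_upwards [h2 h1] with q hq
  obtain ⟨q', ⟨-, hq'⟩, h3⟩ := hq
  simp only [Prod.mk.injEq] at h3
  refine ⟨q'.2, hq', ?_⟩
  rw [← h3.2, h3.1]

/-- Two representations of a 1-form in a parametrisation `ρ`. -/
theorem rep_eq (S : Sheets d E Γ) {V : Set E} {β : Fin S.N → Cm d → L1 d} (hβ : F1On S V β)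
    {ρ : Cm d → E} {w : Cm d} {j₁ j₂ : Fin S.N} {ψ₁ ψ₂ : Cm d → Cm d}
    (hd₁ : DifferentiableAt ℝ ψ₁ w) (hd₂ : DifferentiableAt ℝ ψ₂ w)
    (hb₁ : ψ₁ w ∈ ball (0 : Cm d) 3) (hb₂ : ψ₂ w ∈ ball (0 : Cm d) 3)
    (he₁ : ∀ᶠ u in 𝓝 w, ρ u = S.σ j₁ (ψ₁ u)) (he₂ : ∀ᶠ u in 𝓝 w, ρ u = S.σ j₂ (ψ₂ u))
    (hV : S.σ j₁ (ψ₁ w) ∈ V) :
    (β j₁ (ψ₁ w)).comp (fderiv ℝ ψ₁ w) = (β j₂ (ψ₂ w)).comp (fderiv ℝ ψ₂ w) := by
  have h0 : S.σ j₁ (ψ₁ w) = S.σ j₂ (ψ₂ w) := by rw [← he₁.self_of_nhds, he₂.self_of_nhds]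
  obtain ⟨χ, hχ⟩ := exists_tr S hb₁ hb₂ h0
  have hχ1 := hχ.1
  have hχ2 := hχ.2.1
  have hχ3 := hχ.2.2
  have hbχ : ∀ᶠ u in 𝓝 (ψ₁ w), χ u ∈ ball (0 : Cm d) 3 :=
    hχ1.continuousAt.eventually (by rw [hχ2]; exact isOpen_ball.mem_nhds hb₂)
  have h1 : ∀ᶠ u in 𝓝 w, ψ₂ u = χ (ψ₁ u) := by
    filter_upwards [he₁, he₂, hd₁.continuousAt.eventually hχ3, hd₁.continuousAt.eventually hbχ,
      hd₂.continuousAt.eventually (isOpen_ball.mem_nhds hb₂)] with u h2 h3 h4 h5 h6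
    refine σ_inj S (i := j₂) h6 h5 ?_
    rw [← h3, h2, ← h4]
    rfl
  have h2 : fderiv ℝ ψ₂ w = (fderiv ℝ χ (ψ₁ w)).comp (fderiv ℝ ψ₁ w) := by
    rw [Filter.EventuallyEq.fderiv_eq h1]
    exact fderiv_fun_comp w (hχ1.differentiableAt (by simp)) hd₁
  ext v
  rw [h2]
  simp only [ContinuousLinearMap.comp_apply]
  exact hβ.change j₁ j₂ _ hb₁ _ hb₂ hV χ hχ _

/-- The derivative of a function with `df = β` in a parametrisation `ρ`. -/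
theorem hasFDerivAt_rep (S : Sheets d E Γ) {V : Set E} {β : Fin S.N → Cm d → L1 d} {f : E → ℂ}
    (hf : SmOn S V f) (hfβ : IsD0 S V f β) {ρ : Cm d → E} {w : Cm d} {j : Fin S.N}
    {ψ : Cm d → Cm d} (hd : DifferentiableAt ℝ ψ w) (hb : ψ w ∈ ball (0 : Cm d) 3)
    (he : ∀ᶠ u in 𝓝 w, ρ u = S.σ j (ψ u)) (hV : S.σ j (ψ w) ∈ V) :
    HasFDerivAt (fun u => f (ρ u)) ((β j (ψ w)).comp (fderiv ℝ ψ w)) w := by
  have h1 : HasFDerivAt (fun u => f (S.σ j u)) (β j (ψ w)) (ψ w) := by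
    rw [← hfβ j _ hb hV]
    exact ((hf j _ hb hV).differentiableAt (by simp)).hasFDerivAt
  have h2 := h1.comp w hd.hasFDerivAt
  refine h2.congr_of_eventuallyEq ?_
  filter_upwards [he] with u hu
  simp only [Function.comp_apply, hu]

end Vale.Agent.P281.H406.TS
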